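import Mathlib.Analysis.SpecialFunctions.Log.NegMulLog
import Mathlib.MeasureTheory.Measure.Real
import Mathlib.Order.LiminfLimsup

/-!
# Kolmogorov–Sinai entropy

The definition of the entropy `h_μ(T)` used in the final statement.
-/

open MeasureTheory Set
open scoped ENNReal

namespace Vale.Agent.P109.KS

/-- The name of length `n` of the point `x` with respect to the finite coding `f`:
`(f x, f (T x), …, f (T ^ (n - 1) x))`. -/
def name {X A : Type} (T : X → X) (f : X → A) (n : ℕ) (x : X) : Fin n → A :=
  fun i => f (T^[i] x)

/-- Shannon entropy (natural logarithm) of a map to a finite type, i.e. of the partition of `X`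
into its fibres. -/
noncomputable def shannon {X A : Type} [MeasurableSpace X] [Fintype A]
    (μ : Measure X) (f : X → A) : ℝ :=
  ∑ a, Real.negMulLog (μ.real (f ⁻¹' {a}))

/-- Kolmogorov–Sinai entropy: supremum over the finite measurable partitions (the fibres of the
measurable maps `f : X → Fin k`) of the exponential growth rate of the entropy of the names. -/
noncomputable def ksEntropy {X : Type} [MeasurableSpace X] (μ : Measure X) (T : X → X) : ℝ≥0∞ :=
  ⨆ (k : ℕ) (f : X → Fin k) (_ : Measurable f),
    Filter.limsup (fun n : ℕ => ENNReal.ofReal (shannon μ (name T f n) / n)) Filter.atTop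

end Vale.Agent.P109.KS
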