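import Vale.Agent.P109.F674.Coc
import Vale.Agent.P109.CH469.LocModel

/-!
# COC for `LocModel`
-/

open MeasureTheory Function Module Set
open scoped ENNReal

namespace Vale.Agent.P109.Coc

open Vale.Agent.P109.C443 Vale.Agent.P109.CH469

universe u

variable {A : Type} {D p q : ℕ} {lab : (Fin q → Bool) → Fin p × A}
  {Ω : Type u} [MeasurableSpace Ω] {ν : Measure Ω} {S : Ω → Ω}

theorem measurable_label [MeasurableSpace A] (X : LocModel A D p q lab Ω ν S) :
    Measurable X.label := by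
  classical
  have h1 : Measurable fun z : Ω => (fun l => decide (0 < X.g l z) : Fin q → Bool) := by
    refine measurable_pi_lambda _ fun l => ?_
    refine measurable_to_bool ?_
    have : (fun z => decide (0 < X.g l z)) ⁻¹' {true} = X.g l ⁻¹' Ioi 0 := by
      ext z; simp
    rw [this]
    exact X.g_meas l measurableSet_Ioi
  have h2 : Measurable lab := measurable_of_finite _
  exact h2.comp h1

theorem measurable_idx (X : LocModel A D p q lab Ω ν S) : Measurable X.idx := by
  classical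
  let _ : MeasurableSpace A := ⊤
  exact measurable_fst.comp (measurable_label X)

/-- the coordinates of a point in its own chart -/
noncomputable def crd (X : LocModel A D p q lab Ω ν S) (z : Ω) : EE D := X.phi (X.idx z) z

theorem measurable_crd (X : LocModel A D p q lab Ω ν S) : Measurable (crd X) := by
  have h1 : Measurable fun r : Fin p × Ω => X.phi r.1 r.2 :=
    measurable_from_prod_countable_right fun i => X.phi_meas i
  exact h1.comp ((measurable_idx X).prodMk measurable_id)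

theorem psi_crd {X : LocModel A D p q lab Ω ν S} {N e : ℝ} {z : Ω} (h : X.Marg N e z) :
    X.psi (X.idx z) (crd X z) = z := by
  obtain ⟨⟨y, hy, hyz⟩, -, -⟩ := h
  have h1 := X.phi_psi _ y hy
  rw [hyz] at h1
  have : crd X z = y := h1
  rw [this, hyz]

/-- the dynamics in coordinates -/
theorem f_crd {X : LocModel A D p q lab Ω ν S} {N e : ℝ} (hN : 1 ≤ N) (he : 0 ≤ e) {z : Ω}
    (h : X.Marg N e z) : X.f (X.idx z) (X.idx (S z)) (crd X z) = crd X (S z) := by
  have h1 : crd X z ∈ X.Dom (X.idx z) (X.idx (S z)) :=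
    h.2.1.1 (Metric.mem_closedBall_self (by positivity))
  have h2 := X.dyn _ _ _ h1
  rw [psi_crd h] at h2
  have h3 := X.phi_psi _ _ (X.f_maps _ _ _ h1)
  rw [← h2] at h3
  exact h3.symm

theorem ae_exists_marg [SigmaFinite ν] {X : LocModel A D p q lab Ω ν S} {N : ℝ}
    (hX : X.Regular N) : ∀ᵐ z ∂ν, ∃ e : ℝ, 0 < e ∧ X.Marg N e z := by
  rw [ae_iff]
  have hN : 0 ≤ N := zero_le_one.trans hX.1
  have h1 : ∀ n : ℕ, ν {z | ¬ ∃ e : ℝ, 0 < e ∧ X.Marg N e z} ≤
      ENNReal.ofReal (N * (1 / ((n : ℝ) + 1))) := by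
    intro n
    refine (measure_mono ?_).trans (hX.2 (1 / ((n : ℝ) + 1)) (by positivity) ?_)
    · intro z hz hcon
      exact hz ⟨_, by positivity, hcon⟩
    · rw [div_le_one (by positivity)]
      have : (0 : ℝ) ≤ n := Nat.cast_nonneg n
      linarith
  have h2 : Filter.Tendsto (fun n : ℕ => ENNReal.ofReal (N * (1 / ((n : ℝ) + 1)))) Filter.atTop
      (nhds 0) := by
    have h3 : Filter.Tendsto (fun n : ℕ => N * (1 / ((n : ℝ) + 1))) Filter.atTop (nhds (N * 0)) :=
      tendsto_one_div_add_atTop_nhds_zero_nat.const_mul N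
    rw [mul_zero] at h3
    have h4 := ENNReal.tendsto_ofReal h3
    rwa [ENNReal.ofReal_zero] at h4
  exact le_antisymm (ge_of_tendsto' h2 h1) bot_le

/-- COC for a regular `LocModel`. -/
theorem accounting_loc [IsProbabilityMeasure ν] (R : Ω ≃ᵐ Ω) (hR : ⇑R = S)
    (hS : MeasurePreserving S ν ν) (X : LocModel A D p q lab Ω ν S) {N : ℝ} (hX : X.Regular N)
    (C : ℝ) (hC : 5120000 * (C0 D N + 1) * (1 + 3 * Real.log N) ≤ C) :
    ∀ ρ ε : ℝ, 0 < ρ → ρ ≤ 1 → 0 < ε → ε ≤ 1 →
      ∃ Bad : Finset ℕ, (Bad.card : ℝ) ≤ C / (ε * ρ ^ 2) ∧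
        ∀ j, (C / (ε * ρ)) ^ 2 ≤ 2 ^ j → j ∉ Bad →
          ∃ G : Set Ω, MeasurableSet G ∧
            (∀ z ∈ G, S3.Good (2 ^ (j + 1))
              (fun t => fderiv ℝ (X.f (X.idx (S^[t] z)) (X.idx (S^[t + 1] z))) (crd X (S^[t] z)))
              (Real.exp (ρ * 2 ^ (j + 1) / 200))) ∧
            ∀ Z : Set Ω, MeasurableSet Z →
              (∀ i < 2 ^ (j + 1), ∀ i' < 2 ^ (j + 1), i ≠ i' →
                Disjoint (S^[i] ⁻¹' Z) (S^[i'] ⁻¹' Z)) →
              (2 ^ (j + 1) : ℝ≥0∞) * ν (Z \ G) ≤ ENNReal.ofReal ε := by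
  subst hR
  refine accounting_deriv ν R hS (measurable_idx X) (measurable_crd X) X.f hX.1 ?_ C ?_
  · filter_upwards [ae_exists_marg hX] with z hz
    obtain ⟨e, he, hm⟩ := hz
    have h1 := hm.2.1.2 (crd X z) (Metric.mem_closedBall_self (by
      have := hX.1
      positivity))
    refine ⟨fun v => ?_, h1.2.2.1⟩
    have h2 := h1.2.1 1 (by omega)
    rw [norm_iteratedFDeriv_one] at h2
    exact (ContinuousLinearMap.le_opNorm _ _).trans
      (mul_le_mul_of_nonneg_right h2 (norm_nonneg _))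
  · rw [show finrank ℝ (EE D) = D from finrank_euclideanSpace_fin]
    exact hC

end Vale.Agent.P109.Coc
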