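import Mathlib.Geometry.Manifold.Diffeomorph
import Mathlib.Geometry.Manifold.Instances.Real
import Mathlib.Geometry.Manifold.IsManifold.InteriorBoundary
import Mathlib.MeasureTheory.Measure.Haar.InnerProductSpace
import Mathlib.MeasureTheory.Measure.WithDensity
import Mathlib.MeasureTheory.Constructions.Polish.Basic

/-!
# Smooth positive-volume models

The definitions of the problem file: smooth positive-volume models of measure preserving
transformations on compact manifolds, possibly with boundary.
-/

open MeasureTheory Set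
open scoped ContDiff Manifold

namespace Vale.Agent.P109.Smooth

/-- Isomorphism modulo null sets, as in the problem: a bijection `F : X₀ → Y₀` between invariant
conull measurable sets, measurable with measurable inverse, carrying `μ` to `ν` and satisfying
`F ∘ T = S ∘ F`. -/
def IsoMod0 {X Y : Type*} [MeasurableSpace X] [MeasurableSpace Y]
    (μ : Measure X) (T : X → X) (ν : Measure Y) (S : Y → Y) : Prop :=
  ∃ (X₀ : Set X) (Y₀ : Set Y), MeasurableSet X₀ ∧ MeasurableSet Y₀ ∧ μ X₀ᶜ = 0 ∧ ν Y₀ᶜ = 0 ∧
    T ⁻¹' X₀ = X₀ ∧ S ⁻¹' Y₀ = Y₀ ∧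
    ∃ F : X₀ ≃ᵐ Y₀, (∀ (x : X₀) (hx : T x ∈ X₀), ((F ⟨T x, hx⟩ : Y₀) : Y) = S (F x)) ∧
      (μ.comap ((↑) : X₀ → X)).map F = ν.comap ((↑) : Y₀ → Y)

section

variable {d : ℕ} {H : Type} [TopologicalSpace H]
  (I : ModelWithCorners ℝ (EuclideanSpace ℝ (Fin d)) H)

/-- `M` is a compact smooth (`C^∞`) manifold with model `I` (Hausdorff, second countable). -/
structure CompactSmoothManifold (M : Type) [TopologicalSpace M] [ChartedSpace H M] : Prop where
  t2 : T2Space M
  countable : SecondCountableTopology M
  compact : CompactSpace M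
  smooth : IsManifold I ∞ M

/-- `ν` is given in the local coordinates of every chart of the atlas by a density with respect
to Lebesgue measure which is smooth up to the boundary and strictly positive. -/
def SmoothPositiveVolume (M : Type) [TopologicalSpace M] [ChartedSpace H M] [MeasurableSpace M]
    (ν : Measure M) : Prop :=
  ∀ e ∈ atlas H M, ∃ ρ : EuclideanSpace ℝ (Fin d) → ℝ,
    ContDiffOn ℝ ∞ ρ (e.extend I).target ∧ (∀ x ∈ (e.extend I).target, 0 < ρ x) ∧
    (ν.restrict e.source).map (e.extend I) =
      (volume.restrict (e.extend I).target).withDensity (fun x => ENNReal.ofReal (ρ x))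

/-- `S` is a `C^∞` diffeomorphism of `M`. -/
def IsDiffeo (M : Type) [TopologicalSpace M] [ChartedSpace H M] (S : M → M) : Prop :=
  ∃ Φ : M ≃ₘ^∞⟮I, I⟯ M, ⇑Φ = S

/-- `(X, μ, T)` has a smooth positive-volume model on a compact manifold with model `I`. -/
def HasModelOn {X : Type*} [MeasurableSpace X] (μ : Measure X) (T : X → X) : Prop :=
  ∃ (M : Type) (_ : TopologicalSpace M) (_ : ChartedSpace H M) (_ : MeasurableSpace M)
    (ν : Measure M) (S : M → M),
    CompactSmoothManifold I M ∧ BorelSpace M ∧ IsProbabilityMeasure ν ∧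
      SmoothPositiveVolume I M ν ∧ IsDiffeo I M S ∧ MeasurePreserving S ν ν ∧ IsoMod0 μ T ν S

end

/-- `(X, μ, T)` has a smooth positive-volume model: on a compact manifold of some finite
dimension `d`, without boundary (modelled on `ℝ^d`) or with boundary (modelled on the
half space of `ℝ^d`, `d ≥ 1`). -/
def HasSmoothModel {X : Type*} [MeasurableSpace X] (μ : Measure X) (T : X → X) : Prop :=
  (∃ d : ℕ, HasModelOn (𝓡 d) μ T) ∨ (∃ (d : ℕ) (_ : NeZero d), HasModelOn (𝓡∂ d) μ T)

end Vale.Agent.P109.Smooth
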