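import Mathlib.Dynamics.Ergodic.Ergodic
import Vale.Agent.P109.F674.Model
import Vale.Agent.P109.F674.KS

/-!
# The question
-/

open MeasureTheory Set
open scoped ENNReal

namespace Vale.Agent.P109.Smooth

/-- The positive assertion of Q1: every ergodic invertible measure preserving transformation of a
standard nonatomic probability space with finite entropy has a smooth positive-volume model. -/
def Q1 : Prop :=
  ∀ (X : Type) [MeasurableSpace X] [StandardBorelSpace X] (μ : Measure X)
    [IsProbabilityMeasure μ] (T : X ≃ᵐ X),
    (∀ x, μ {x} = 0) → Ergodic T μ → KS.ksEntropy μ T < ⊤ → HasSmoothModel μ T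

end Vale.Agent.P109.Smooth
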