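import Vale.Agent.P109.F674.Factor
import Vale.Agent.P109.F674.Q1
import Vale.Agent.P109.OV.Interface

/-!
# Final assembly from the smooth side and the symbolic side
-/

open MeasureTheory Set
open scoped ContDiff Manifold ENNReal

namespace Vale.Agent.P109.Smooth

/-- All smooth systems on compact manifolds with model `I` are predictable by `Fam`. -/
def SmoothSide {A : Type} [MeasurableSpace A] (Fam : OV.Family A) {d : ℕ} {H : Type}
    [TopologicalSpace H] (I : ModelWithCorners ℝ (EuclideanSpace ℝ (Fin d)) H) : Prop :=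
  ∀ (M : Type) [TopologicalSpace M] [ChartedSpace H M] [MeasurableSpace M] [BorelSpace M]
    (ν : Measure M) [IsProbabilityMeasure ν] (S : M → M),
    CompactSmoothManifold I M → SmoothPositiveVolume I M ν → IsDiffeo I M S →
    MeasurePreserving S ν ν → OV.Predictable Fam ν S

/-- There is an ergodic system of zero entropy which is not a factor of any predictable system. -/
def SymbSide {A : Type} [MeasurableSpace A] (Fam : OV.Family A) : Prop :=
  ∃ (X : Type) (_ : MeasurableSpace X) (_ : StandardBorelSpace X) (μ : Measure X)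
    (_ : IsProbabilityMeasure μ) (T : X ≃ᵐ X), (∀ x, μ {x} = 0) ∧ Ergodic T μ ∧
    KS.ksEntropy μ T = 0 ∧
    ∀ (M : Type) [MeasurableSpace M] (ν : Measure M) [IsProbabilityMeasure ν] (S : M ≃ᵐ M),
      MeasurePreserving S ν ν → OV.Predictable Fam ν S →
      ¬ ∃ (π : M → X) (M₀ : Set M), MeasurePreserving π ν μ ∧ MeasurableSet M₀ ∧ ν M₀ᶜ = 0 ∧
        S ⁻¹' M₀ = M₀ ∧ ∀ y ∈ M₀, π (S y) = T (π y)

theorem not_hasModelOn {A : Type} [MeasurableSpace A] {Fam : OV.Family A} {d : ℕ} {H : Type}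
    [TopologicalSpace H] {I : ModelWithCorners ℝ (EuclideanSpace ℝ (Fin d)) H}
    (hI : SmoothSide Fam I) {X : Type} [MeasurableSpace X] {μ : Measure X}
    [IsProbabilityMeasure μ] {T : X → X}
    (hT : ∀ (M : Type) [MeasurableSpace M] (ν : Measure M) [IsProbabilityMeasure ν] (S : M ≃ᵐ M),
      MeasurePreserving S ν ν → OV.Predictable Fam ν S →
      ¬ ∃ (π : M → X) (M₀ : Set M), MeasurePreserving π ν μ ∧ MeasurableSet M₀ ∧ ν M₀ᶜ = 0 ∧
        S ⁻¹' M₀ = M₀ ∧ ∀ y ∈ M₀, π (S y) = T (π y)) :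
    ¬ HasModelOn I μ T := by
  rintro ⟨M, _, _, _, ν, S, hM, hB, hν, hvol, hS, hpres, hiso⟩
  have : Nonempty X := by
    by_contra h
    rw [not_nonempty_iff] at h
    have h1 : μ univ = 1 := measure_univ
    rw [Set.eq_empty_of_isEmpty (univ : Set X), measure_empty] at h1
    exact zero_ne_one h1
  have hP := hI M ν S hM hvol hS hpres
  obtain ⟨R, hR⟩ := hS.exists_measurableEquiv I
  obtain ⟨π, M₀, h1, h2, h3, h4, h5⟩ := hiso.factor
  subst hR
  exact hT M ν R hpres hP ⟨π, M₀, h1, h2, h3, h4, h5⟩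

/-- The disproof of Q1 from the smooth side and the symbolic side. -/
theorem final_of {A : Type} [MeasurableSpace A] {Fam : OV.Family A}
    (h1 : ∀ d : ℕ, SmoothSide Fam (𝓡 d)) (h2 : ∀ (d : ℕ) [NeZero d], SmoothSide Fam (𝓡∂ d))
    (h3 : SymbSide Fam) :
    ∃ (X : Type) (_ : MeasurableSpace X) (_ : StandardBorelSpace X) (μ : Measure X)
      (_ : IsProbabilityMeasure μ) (T : X ≃ᵐ X), (∀ x, μ {x} = 0) ∧ Ergodic T μ ∧
      KS.ksEntropy μ T = 0 ∧ ¬ HasSmoothModel μ T := by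
  obtain ⟨X, i1, i2, μ, i3, T, hna, herg, hent, hno⟩ := h3
  refine ⟨X, i1, i2, μ, i3, T, hna, herg, hent, ?_⟩
  rintro (⟨d, hd⟩ | ⟨d, hd0, hd⟩)
  · exact not_hasModelOn (h1 d) hno hd
  · exact not_hasModelOn (h2 d) hno hd

theorem not_Q1_of
    (h : ∃ (X : Type) (_ : MeasurableSpace X) (_ : StandardBorelSpace X) (μ : Measure X)
      (_ : IsProbabilityMeasure μ) (T : X ≃ᵐ X), (∀ x, μ {x} = 0) ∧ Ergodic T μ ∧
      KS.ksEntropy μ T = 0 ∧ ¬ HasSmoothModel μ T) : ¬ Q1 := by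
  obtain ⟨X, i1, i2, μ, i3, T, hna, herg, hent, hno⟩ := h
  intro hQ
  exact hno (hQ X μ T hna herg (by rw [hent]; exact WithTop.top_pos))

end Vale.Agent.P109.Smooth
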