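import Vale.Agent.P109.C443.Meas
import Vale.Agent.P109.C443.Persist
import Vale.Agent.P109.R476.Glue

/-!
# Block S1, closed form: accounting for a bounded measurable cocycle
-/

open MeasureTheory Function Module
open scoped ENNReal

namespace Vale.Agent.P109.Coc

open Vale.Agent.P109.C443

variable {E : Type*} [NormedAddCommGroup E] [InnerProductSpace ℝ E] [FiniteDimensional ℝ E]
  [MeasurableSpace E] [BorelSpace E]

/-- **Block S1**: a bounded measurable cocycle over an invertible measure preserving map has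
Green operators of subexponential size at all but boundedly many dyadic scales. -/
theorem accounting {Ω : Type*} [MeasurableSpace Ω] (ν : Measure Ω)
    [IsProbabilityMeasure ν] (S : Ω ≃ᵐ Ω) (hS : MeasurePreserving S ν ν)
    (Dm : Ω → E →L[ℝ] E) (hD : ∀ v, Measurable fun x => Dm x v) {Λ : ℝ} (hΛ : CocBd Dm Λ)
    (C : ℝ) (hC : 5120000 * (C0 (finrank ℝ E) Λ + 1) * (1 + 3 * Real.log Λ) ≤ C) :
    ∀ ρ ε : ℝ, 0 < ρ → ρ ≤ 1 → 0 < ε → ε ≤ 1 →
      ∃ Bad : Finset ℕ, (Bad.card : ℝ) ≤ C / (ε * ρ ^ 2) ∧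
        ∀ j, (C / (ε * ρ)) ^ 2 ≤ 2 ^ j → j ∉ Bad →
          ∃ G : Set Ω, MeasurableSet G ∧
            (∀ x ∈ G, S3.Good (2 ^ (j + 1)) (fun t => Dm (S^[t] x))
              (Real.exp (ρ * 2 ^ (j + 1) / 200))) ∧
            ∀ Z : Set Ω, MeasurableSet Z →
              (∀ i < 2 ^ (j + 1), ∀ i' < 2 ^ (j + 1), i ≠ i' →
                Disjoint (S^[i] ⁻¹' Z) (S^[i'] ⁻¹' Z)) →
              (2 ^ (j + 1) : ℝ≥0∞) * ν (Z \ G) ≤ ENNReal.ofReal ε := by
  classical
  have hΛ1 := hΛ.one_le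
  have hΛ0 : 0 < Λ := zero_lt_one.trans_le hΛ1
  have hC0 : 0 ≤ C0 (finrank ℝ E) Λ := by
    unfold C0
    have : 0 ≤ Real.log (Λ ^ 2 + 1) := Real.log_nonneg (by nlinarith)
    positivity
  let S' : Ω ≃ Ω := S.toEquiv
  have hcoe : (S' : Ω → Ω) = S := rfl
  let Sm' : ℕ → Ω → ℝ := fun m => if m = 0 then fun _ => 0 else Sm Dm S m
  let GA : ℕ → ℝ → Ω → Prop := fun m K x => 0 ≤ K ∧ GoodAt Dm S' m K x
  have hSm : ∀ m, 1 ≤ m → Sm' m = Sm Dm S m := fun m hm => by
    simp only [Sm', if_neg (by omega : ¬ m = 0)]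
  have hback : ∀ (m : ℕ) (x : Ω), S'.symm^[m] (S^[m] x) = x := fun m x => by
    have h0 : LeftInverse S'.symm S' := S'.symm_apply_apply
    exact h0.iterate m x
  refine P109.R476.accounting_of ν S hS Dm (C0 (finrank ℝ E) Λ) Λ C hC0 hΛ1 hC Sm' GA
    ?_ ?_ ?_ ?_ ?_ ?_ ?_ ?_ ?_
  · intro m
    by_cases hm : m = 0
    · simp only [Sm', if_pos hm]; exact measurable_const
    · rw [hSm m (by omega)]
      exact measurable_Sm hD S.measurable m
  · intro m
    by_cases hm : m = 0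
    · exact ⟨0, fun x => by simp only [Sm', if_pos hm]; simp⟩
    · refine ⟨(1 / 2) * Real.log ((m * Λ ^ (2 * m)) ^ (finrank ℝ E)), fun x => ?_⟩
      rw [hSm m (by omega), abs_of_nonneg (Sm_nonneg Dm S hΛ (by omega) x)]
      exact Sm_le Dm S hΛ (by omega) x
  · intro m x
    by_cases hm : m = 0
    · simp only [Sm', if_pos hm]; exact le_rfl
    · rw [hSm m (by omega)]
      exact Sm_nonneg Dm S hΛ (by omega) x
  · intro x
    rw [hSm 1 le_rfl]
    exact Sm_one Dm S x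
  · intro m hm x
    rw [hSm m hm, hSm (2 * m) (by omega)]
    have h := (overlap Dm S' hΛ hm (S^[m] x)).1
    rw [hback] at h
    exact h
  · intro m hm x a ha
    rw [hSm m hm, hSm (2 * m) (by omega)] at ha
    have h := (overlap Dm S' hΛ hm (S^[m] x)).2 a
    rw [hback] at h
    exact ⟨(Real.exp_pos _).le, h ha⟩
  · intro m u K x hu hg
    refine ⟨?_, GoodAt.persist hΛ hg.1 hu hg.2⟩
    have := hg.1
    positivity
  · intro m K K' x hK hg
    exact ⟨hg.1.trans hK, hg.2.mono hg.1 hK⟩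
  · intro n K x hg
    by_cases hn : n = 0
    · subst hn
      refine ⟨fun _ _ => 0, ?_, ?_⟩ <;> · intros; omega
    · have hK : 0 ≤ K := (hg 1 le_rfl (by omega)).1
      exact good_of_goodAt hK fun τ h1 h2 => (hg τ h1 h2).2

end Vale.Agent.P109.Coc
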