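import Vale.Agent.P109.F674.Acc
import Mathlib.Analysis.Calculus.FDeriv.Measurable

/-!
# The derivative cocycle in chart coordinates
-/

open MeasureTheory Function Module Set
open scoped ENNReal

namespace Vale.Agent.P109.Coc

open Vale.Agent.P109.C443

variable {E : Type*} [NormedAddCommGroup E] [InnerProductSpace ℝ E] [FiniteDimensional ℝ E]
  [MeasurableSpace E] [BorelSpace E]

/-- the derivative in coordinates at the point `z` -/
noncomputable def dcoc {Ω ι : Type*} (S : Ω → Ω) (ix : Ω → ι) (x : Ω → E)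
    (f : ι → ι → E → E) (z : Ω) : E →L[ℝ] E :=
  fderiv ℝ (f (ix z) (ix (S z))) (x z)

theorem measurable_dcoc {Ω ι : Type*} [MeasurableSpace Ω] [Countable ι] [MeasurableSpace ι]
    [MeasurableSingletonClass ι] {S : Ω → Ω} (hS : Measurable S) {ix : Ω → ι}
    (hix : Measurable ix) {x : Ω → E} (hx : Measurable x) (f : ι → ι → E → E) (v : E) :
    Measurable fun z => dcoc S ix x f z v := by
  have h1 : Measurable fun q : (ι × ι) × E => fderiv ℝ (f q.1.1 q.1.2) q.2 v := by
    apply measurable_from_prod_countable_right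
    intro q
    exact measurable_fderiv_apply_const ℝ (f q.1 q.2) v
  exact h1.comp ((hix.prodMk (hix.comp hS)).prodMk hx)

/-- **COC**: accounting for the derivative cocycle in chart coordinates. -/
theorem accounting_deriv {Ω ι : Type*} [MeasurableSpace Ω] [Countable ι] [MeasurableSpace ι]
    [MeasurableSingletonClass ι] (ν : Measure Ω)
    [IsProbabilityMeasure ν] (S : Ω ≃ᵐ Ω) (hS : MeasurePreserving S ν ν)
    {ix : Ω → ι} (hix : Measurable ix) {x : Ω → E} (hx : Measurable x) (f : ι → ι → E → E)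
    {N : ℝ} (hN : 1 ≤ N)
    (hb : ∀ᵐ z ∂ν, (∀ v, ‖fderiv ℝ (f (ix z) (ix (S z))) (x z) v‖ ≤ N * ‖v‖) ∧
      ∀ v, ‖v‖ ≤ N * ‖fderiv ℝ (f (ix z) (ix (S z))) (x z) v‖)
    (C : ℝ) (hC : 5120000 * (C0 (finrank ℝ E) N + 1) * (1 + 3 * Real.log N) ≤ C) :
    ∀ ρ ε : ℝ, 0 < ρ → ρ ≤ 1 → 0 < ε → ε ≤ 1 →
      ∃ Bad : Finset ℕ, (Bad.card : ℝ) ≤ C / (ε * ρ ^ 2) ∧
        ∀ j, (C / (ε * ρ)) ^ 2 ≤ 2 ^ j → j ∉ Bad →
          ∃ G : Set Ω, MeasurableSet G ∧
            (∀ z ∈ G, S3.Good (2 ^ (j + 1))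
              (fun t => fderiv ℝ (f (ix (S^[t] z)) (ix (S^[t + 1] z))) (x (S^[t] z)))
              (Real.exp (ρ * 2 ^ (j + 1) / 200))) ∧
            ∀ Z : Set Ω, MeasurableSet Z →
              (∀ i < 2 ^ (j + 1), ∀ i' < 2 ^ (j + 1), i ≠ i' →
                Disjoint (S^[i] ⁻¹' Z) (S^[i'] ⁻¹' Z)) →
              (2 ^ (j + 1) : ℝ≥0∞) * ν (Z \ G) ≤ ENNReal.ofReal ε := by
  classical
  -- a measurable conull set on which the bounds hold
  set bad : Set Ω := toMeasurable ν {z | ¬ ((∀ v, ‖dcoc S ix x f z v‖ ≤ N * ‖v‖) ∧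
    ∀ v, ‖v‖ ≤ N * ‖dcoc S ix x f z v‖)} with hbad
  have hbad0 : ν bad = 0 := by
    rw [hbad, measure_toMeasurable]
    exact hb
  have hbadm : MeasurableSet bad := measurableSet_toMeasurable _ _
  have hgood : ∀ z ∉ bad, (∀ v, ‖dcoc S ix x f z v‖ ≤ N * ‖v‖) ∧
      ∀ v, ‖v‖ ≤ N * ‖dcoc S ix x f z v‖ := by
    intro z hz
    by_contra hcon
    exact hz (subset_toMeasurable _ _ hcon)
  let Dm : Ω → E →L[ℝ] E := fun z => if z ∈ bad then ContinuousLinearMap.id ℝ E
    else dcoc S ix x f z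
  have hDm : ∀ z ∉ bad, Dm z = dcoc S ix x f z := fun z hz => if_neg hz
  have hDm' : ∀ z ∈ bad, Dm z = ContinuousLinearMap.id ℝ E := fun z hz => if_pos hz
  have hmeas : ∀ v, Measurable fun z => Dm z v := by
    intro v
    have h1 : (fun z => Dm z v) = bad.piecewise (fun _ => v) (fun z => dcoc S ix x f z v) := by
      funext z
      by_cases hz : z ∈ bad
      · rw [piecewise_eq_of_mem _ _ _ hz, hDm' z hz]; rfl
      · rw [piecewise_eq_of_notMem _ _ _ hz, hDm z hz]
    rw [h1]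
    exact Measurable.piecewise hbadm measurable_const (measurable_dcoc S.measurable hix hx f v)
  have hcoc : CocBd Dm N := by
    refine ⟨hN, fun z v => ?_, fun z v => ?_⟩
    · by_cases hz : z ∈ bad
      · rw [hDm' z hz]
        exact le_mul_of_one_le_left (norm_nonneg _) hN
      · rw [hDm z hz]; exact (hgood z hz).1 v
    · by_cases hz : z ∈ bad
      · rw [hDm' z hz]
        exact le_mul_of_one_le_left (norm_nonneg _) hN
      · rw [hDm z hz]; exact (hgood z hz).2 v
  intro ρ ε hρ hρ1 hε hε1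
  obtain ⟨Bad, hcard, hBad⟩ := accounting ν S hS Dm hmeas hcoc C hC ρ ε hρ hρ1 hε hε1
  refine ⟨Bad, hcard, fun j hj hjB => ?_⟩
  obtain ⟨G, hGm, hG, hZ⟩ := hBad j hj hjB
  -- remove the orbit of the exceptional null set
  let U : Set Ω := ⋃ t : ℕ, S^[t] ⁻¹' bad
  have hUm : MeasurableSet U := MeasurableSet.iUnion fun t => (S.measurable.iterate t) hbadm
  have hU0 : ν U = 0 := by
    rw [measure_iUnion_null_iff]
    intro t
    rw [(hS.iterate t).measure_preimage hbadm.nullMeasurableSet]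
    exact hbad0
  refine ⟨G \ U, hGm.diff hUm, ?_, ?_⟩
  · intro z hz
    refine (hG z hz.1).congr ?_
    intro t _
    have hzt : S^[t] z ∉ bad := by
      intro h
      exact hz.2 (mem_iUnion.2 ⟨t, h⟩)
    rw [hDm _ hzt, dcoc, Function.iterate_succ_apply']
  · intro Z hZm hdisj
    refine le_trans ?_ (hZ Z hZm hdisj)
    refine mul_le_mul' le_rfl ?_
    calc ν (Z \ (G \ U)) ≤ ν ((Z \ G) ∪ U) := measure_mono (by
          intro z hz
          by_cases hG' : z ∈ G
          · right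
            by_contra hU'
            exact hz.2 ⟨hG', hU'⟩
          · left
            exact ⟨hz.1, hG'⟩)
      _ ≤ ν (Z \ G) + ν U := measure_union_le _ _
      _ = ν (Z \ G) := by rw [hU0, add_zero]

end Vale.Agent.P109.Coc
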