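import Vale.Agent.P109.F674.Coc
import Vale.Agent.P109.H703.PieceSys

/-!
# COC for `PieceSys`
-/

open MeasureTheory Function Module Set
open scoped ENNReal

namespace Vale.Agent.P109.Coc

open Vale.Agent.P109.C443

variable {M A : Type} [MeasurableSpace M] {ν : Measure M} {S : M → M} {α : M → A} {D k N : ℕ}

theorem PieceSys.ae_interior [IsProbabilityMeasure ν] (X : PieceSys ν S α D k N) :
    ∀ᵐ z ∂ν, X.x z ∈ interior (X.C (X.ch z) (X.ch (S z)) (α z)) := by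
  rw [ae_iff]
  have h1 : ∀ n : ℕ, ν {z | ¬ X.x z ∈ interior (X.C (X.ch z) (X.ch (S z)) (α z))} ≤
      ENNReal.ofReal (N * (1 / ((n : ℝ) + 1))) := by
    intro n
    have hpos : (0 : ℝ) < 1 / ((n : ℝ) + 1) := by positivity
    refine (measure_mono ?_).trans (X.margin (1 / ((n : ℝ) + 1)) hpos)
    intro z hz hcon
    refine hz ?_
    exact interior_mono hcon (Metric.ball_subset_interior_closedBall (Metric.mem_ball_self hpos))
  have h2 : Filter.Tendsto (fun n : ℕ => ENNReal.ofReal (N * (1 / ((n : ℝ) + 1)))) Filter.atTop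
      (nhds 0) := by
    have h3 : Filter.Tendsto (fun n : ℕ => (N : ℝ) * (1 / ((n : ℝ) + 1))) Filter.atTop
        (nhds (N * 0)) := tendsto_one_div_add_atTop_nhds_zero_nat.const_mul (N : ℝ)
    rw [mul_zero] at h3
    have h4 := ENNReal.tendsto_ofReal h3
    rwa [ENNReal.ofReal_zero] at h4
  exact le_antisymm (ge_of_tendsto' h2 h1) bot_le

/-- COC for a `PieceSys`. -/
theorem accounting_piece [IsProbabilityMeasure ν] (R : M ≃ᵐ M) (hR : ⇑R = S)
    (hS : MeasurePreserving S ν ν) (X : PieceSys ν S α D k N) (hk : 1 ≤ k) (hN : 1 ≤ N)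
    (C : ℝ) (hC : 5120000 * (C0 D N + 1) * (1 + 3 * Real.log N) ≤ C) :
    ∀ ρ ε : ℝ, 0 < ρ → ρ ≤ 1 → 0 < ε → ε ≤ 1 →
      ∃ Bad : Finset ℕ, (Bad.card : ℝ) ≤ C / (ε * ρ ^ 2) ∧
        ∀ j, (C / (ε * ρ)) ^ 2 ≤ 2 ^ j → j ∉ Bad →
          ∃ G : Set M, MeasurableSet G ∧
            (∀ z ∈ G, S3.Good (2 ^ (j + 1))
              (fun t => fderiv ℝ (X.f (X.ch (S^[t] z)) (X.ch (S^[t + 1] z))) (X.x (S^[t] z)))
              (Real.exp (ρ * 2 ^ (j + 1) / 200))) ∧
            ∀ Z : Set M, MeasurableSet Z →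
              (∀ i < 2 ^ (j + 1), ∀ i' < 2 ^ (j + 1), i ≠ i' →
                Disjoint (S^[i] ⁻¹' Z) (S^[i'] ⁻¹' Z)) →
              (2 ^ (j + 1) : ℝ≥0∞) * ν (Z \ G) ≤ ENNReal.ofReal ε := by
  subst hR
  refine accounting_deriv ν R hS X.meas_ch X.meas_x X.f (N := N) (by exact_mod_cast hN) ?_ C ?_
  · filter_upwards [PieceSys.ae_interior X] with z hz
    refine ⟨fun v => ?_, X.f_inv _ _ _ _ hz⟩
    have h2 := X.f_bound _ _ _ _ hz 1 (by exact_mod_cast hk)
    rw [norm_iteratedFDeriv_one] at h2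
    exact (ContinuousLinearMap.le_opNorm _ _).trans
      (mul_le_mul_of_nonneg_right h2 (norm_nonneg _))
  · rw [show finrank ℝ (EuS D) = D from finrank_euclideanSpace_fin]
    exact hC

end Vale.Agent.P109.Coc
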