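import Vale.Agent.P109.F674.FactorModel
import Vale.Agent.P109.F674.Final

/-!
# Final assembly, factor form
-/

open MeasureTheory Set
open scoped ContDiff Manifold ENNReal

namespace Vale.Agent.P109.Smooth

/-- An almost everywhere intertwining map intertwines on an invariant conull measurable set. -/
theorem exists_invariant {M : Type} [MeasurableSpace M] {ν : Measure M} (S : M ≃ᵐ M)
    (hS : MeasurePreserving S ν ν) {P : M → Prop} (hP : ∀ᵐ y ∂ν, P y) :
    ∃ M₀ : Set M, MeasurableSet M₀ ∧ ν M₀ᶜ = 0 ∧ S ⁻¹' M₀ = M₀ ∧ ∀ y ∈ M₀, P y := by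
  set B : Set M := toMeasurable ν {y | ¬ P y} with hB
  have hBm : MeasurableSet B := measurableSet_toMeasurable _ _
  have hB0 : ν B = 0 := by rw [hB, measure_toMeasurable]; exact hP
  have hS' : MeasurePreserving S.symm ν ν := hS.symm S
  set N : Set M := (⋃ n : ℕ, (⇑S)^[n] ⁻¹' B) ∪ ⋃ n : ℕ, (⇑S.symm)^[n] ⁻¹' B with hN
  have hNm : MeasurableSet N :=
    (MeasurableSet.iUnion fun n => (S.measurable.iterate n) hBm).union
      (MeasurableSet.iUnion fun n => (S.symm.measurable.iterate n) hBm)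
  have hN0 : ν N = 0 := by
    rw [hN, measure_union_null_iff, measure_iUnion_null_iff, measure_iUnion_null_iff]
    refine ⟨fun n => ?_, fun n => ?_⟩
    · rw [(hS.iterate n).measure_preimage hBm.nullMeasurableSet, hB0]
    · rw [(hS'.iterate n).measure_preimage hBm.nullMeasurableSet, hB0]
  have hinv : S ⁻¹' N = N := by
    ext y
    simp only [hN, mem_preimage, mem_union, mem_iUnion]
    constructor
    · rintro (⟨n, hn⟩ | ⟨n, hn⟩)
      · exact Or.inl ⟨n + 1, by rwa [Function.iterate_succ_apply]⟩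
      · rcases n with _ | n
        · exact Or.inl ⟨1, by simpa using hn⟩
        · rw [Function.iterate_succ_apply, MeasurableEquiv.symm_apply_apply] at hn
          exact Or.inr ⟨n, hn⟩
    · rintro (⟨n, hn⟩ | ⟨n, hn⟩)
      · rcases n with _ | n
        · refine Or.inr ⟨1, ?_⟩
          simpa using hn
        · rw [Function.iterate_succ_apply] at hn
          exact Or.inl ⟨n, hn⟩
      · refine Or.inr ⟨n + 1, ?_⟩
        rwa [Function.iterate_succ_apply, MeasurableEquiv.symm_apply_apply]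
  refine ⟨Nᶜ, hNm.compl, by rw [compl_compl]; exact hN0, by rw [preimage_compl, hinv], ?_⟩
  intro y hy
  by_contra h
  exact hy (Or.inl (mem_iUnion.2 ⟨0, subset_toMeasurable ν _ h⟩))

theorem not_isFactorOn {A : Type} [MeasurableSpace A] {Fam : OV.Family A} {d : ℕ} {H : Type}
    [TopologicalSpace H] {I : ModelWithCorners ℝ (EuclideanSpace ℝ (Fin d)) H}
    (hI : SmoothSide Fam I) {X : Type} [MeasurableSpace X] {μ : Measure X}
    {T : X → X}
    (hT : ∀ (M : Type) [MeasurableSpace M] (ν : Measure M) [IsProbabilityMeasure ν] (S : M ≃ᵐ M),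
      MeasurePreserving S ν ν → OV.Predictable Fam ν S →
      ¬ ∃ (π : M → X) (M₀ : Set M), MeasurePreserving π ν μ ∧ MeasurableSet M₀ ∧ ν M₀ᶜ = 0 ∧
        S ⁻¹' M₀ = M₀ ∧ ∀ y ∈ M₀, π (S y) = T (π y)) :
    ¬ IsFactorOn I μ T := by
  rintro ⟨M, _, _, _, ν, S, hM, hB, hν, hvol, hS, hpres, π, hπ, hae⟩
  have hP := hI M ν S hM hvol hS hpres
  obtain ⟨R, hR⟩ := hS.exists_measurableEquiv I
  subst hR
  obtain ⟨M₀, h2, h3, h4, h5⟩ := exists_invariant R hpres hae
  exact hT M ν R hpres hP ⟨π, M₀, hπ, h2, h3, h4, h5⟩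

/-- The stronger form: the system is not even a factor of a smooth positive-volume system. -/
theorem final_factor_of {A : Type} [MeasurableSpace A] {Fam : OV.Family A}
    (h1 : ∀ d : ℕ, SmoothSide Fam (𝓡 d)) (h2 : ∀ (d : ℕ) [NeZero d], SmoothSide Fam (𝓡∂ d))
    (h3 : SymbSide Fam) :
    ∃ (X : Type) (_ : MeasurableSpace X) (_ : StandardBorelSpace X) (μ : Measure X)
      (_ : IsProbabilityMeasure μ) (T : X ≃ᵐ X), (∀ x, μ {x} = 0) ∧ Ergodic T μ ∧
      KS.ksEntropy μ T = 0 ∧ ¬ IsSmoothFactor μ T := by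
  obtain ⟨X, i1, i2, μ, i3, T, hna, herg, hent, hno⟩ := h3
  refine ⟨X, i1, i2, μ, i3, T, hna, herg, hent, ?_⟩
  rintro (⟨d, hd⟩ | ⟨d, hd0, hd⟩)
  · exact not_isFactorOn (h1 d) hno hd
  · exact not_isFactorOn (h2 d) hno hd

end Vale.Agent.P109.Smooth
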