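import Vale.Agent.P109.F674.Final
import Vale.Agent.P109.A424.OfSys
import Vale.Agent.P109.H462.Schedule
import Vale.Agent.P109.H787.Erg
import Vale.Agent.P109.H787.Ent

/-!
# The symbolic side from a choice of relations without phased predictable systems
-/

open MeasureTheory Set Filter
open scoped ENNReal Topology

namespace Vale.Agent.P109.F674

open H462 H462.Sched A424

/-- The tower over the relations `t` of the concrete schedule. -/
noncomputable abbrev tw (t : sched.Rels) : GTower := (sched.tower t).toG

theorem indep (t : sched.Rels) (n : ℕ) : ∃ j, n ≤ j ∧ (tw t).Indep j := by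
  obtain ⟨j, hj, h⟩ := exists_idle n
  refine ⟨j, hj, Tower.indep_of_full _ j ?_⟩
  show 2 ^ (sched.κ j - sched.lam j) = Fintype.card (Fin (2 ^ sched.κ j))
  rw [h, Fintype.card_fin, Nat.sub_zero]

theorem tendsto_log_card (t : sched.Rels) :
    Tendsto (fun j => Real.log (Fintype.card ((tw t).W j)) / (tw t).H j) atTop (𝓝 0) := by
  have h := tendsto_κ_div.const_mul (Real.log 2)
  rw [mul_zero] at h
  refine h.congr fun j => ?_
  have h1 : Fintype.card ((tw t).W j) = 2 ^ sched.κ j := by
    show Fintype.card (Fin (2 ^ sched.κ j)) = _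
    exact Fintype.card_fin _
  rw [h1, Tower.toG_H]
  push_cast
  rw [Real.log_pow]
  ring

/-- The symbolic side: if no system predictable by `Fam` carries the phases and words of the
relations `t`, the system over the tower of `t` is not a factor of a predictable system. -/
theorem symbSide_of {Fam : OV.Family (sched.W 0)} (t : sched.Rels)
    (hno : ∀ (M : Type) [MeasurableSpace M] (ν : Measure M) [IsProbabilityMeasure ν] (S : M ≃ᵐ M),
      MeasurePreserving S ν ν → OV.Predictable Fam ν S → Phased sched t ν S → False) :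
    Smooth.SymbSide Fam := by
  let 𝒮 : (tw t).Sys := (tw t).sys
  refine ⟨𝒮.X, 𝒮.ms, 𝒮.sb, 𝒮.μ, 𝒮.prob, 𝒮.T, 𝒮.measure_singleton, 𝒮.ergodic (indep t),
    𝒮.ksEntropy_eq_zero (tendsto_log_card t), ?_⟩
  intro M _ ν _ S hS hP h
  obtain ⟨P⟩ := exists_phased 𝒮 h
  exact hno M ν S hS hP P

end Vale.Agent.P109.F674
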