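import Vale.Agent.P109.CH469.Smooth
import Vale.Agent.P109.A424.Main
import Vale.Agent.P109.F674.SymbOf
import Vale.Agent.P109.F674.FactorFinal

/-!
# P109: the final theorems
-/

open MeasureTheory Set
open scoped Manifold

namespace Vale.Agent.P109.F674

open Smooth H462 H462.Sched A424

/-- the symbolic side for the small family of the smooth side -/
theorem symbSide : SymbSide (CH469.Fam : OV.Family (sched.W 0)) := by
  obtain ⟨t, ht⟩ := exists_not_predictable (CH469.Fam : OV.Family (sched.W 0)) CH469.smallFamily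
  exact symbSide_of t fun M _ ν _ S hS hP P => ht hS P hP

theorem nonempty_W : Nonempty (sched.W 0) := ⟨⟨0, by positivity⟩⟩

theorem main :
    ∃ (X : Type) (_ : MeasurableSpace X) (_ : StandardBorelSpace X) (μ : Measure X)
      (_ : IsProbabilityMeasure μ) (T : X ≃ᵐ X),
      (∀ x, μ {x} = 0) ∧ Ergodic T μ ∧ KS.ksEntropy μ T = 0 ∧ ¬ HasSmoothModel μ T :=
  have := nonempty_W
  final_of (CH469.smoothSide_boundaryless (sched.W 0))
    (fun d _ => CH469.smoothSide_boundary (sched.W 0) d) symbSide

theorem main_factor :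
    ∃ (X : Type) (_ : MeasurableSpace X) (_ : StandardBorelSpace X) (μ : Measure X)
      (_ : IsProbabilityMeasure μ) (T : X ≃ᵐ X),
      (∀ x, μ {x} = 0) ∧ Ergodic T μ ∧ KS.ksEntropy μ T = 0 ∧ ¬ IsSmoothFactor μ T :=
  have := nonempty_W
  final_factor_of (CH469.smoothSide_boundaryless (sched.W 0))
    (fun d _ => CH469.smoothSide_boundary (sched.W 0) d) symbSide

end Vale.Agent.P109.F674
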