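import Vale.Agent.P109.F674.Model

/-!
# From an isomorphism modulo null sets to a factor map
-/

open MeasureTheory Set
open scoped ContDiff Manifold

namespace Vale.Agent.P109.Smooth

/-- An isomorphism modulo null sets gives an everywhere defined measurable factor map. -/
theorem IsoMod0.factor {X Y : Type*} [MeasurableSpace X] [Nonempty X] [MeasurableSpace Y]
    {μ : Measure X} {T : X → X} {ν : Measure Y} {S : Y → Y} (h : IsoMod0 μ T ν S) :
    ∃ (π : Y → X) (Y₀ : Set Y), MeasurePreserving π ν μ ∧ MeasurableSet Y₀ ∧ ν Y₀ᶜ = 0 ∧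
      S ⁻¹' Y₀ = Y₀ ∧ ∀ y ∈ Y₀, π (S y) = T (π y) := by
  classical
  obtain ⟨X₀, Y₀, hX₀, hY₀, hμ, hν, hTX, hSY, F, hF, hmap⟩ := h
  let x0 : X := Classical.arbitrary X
  let π : Y → X := fun y => if hy : y ∈ Y₀ then ((F.symm ⟨y, hy⟩ : X₀) : X) else x0
  have hπ : Measurable π := by
    refine Measurable.dite (f := fun y : Y₀ => ((F.symm y : X₀) : X))
      (g := fun _ : (Y₀ᶜ : Set Y) => x0) ?_ measurable_const hY₀
    exact measurable_subtype_coe.comp F.symm.measurable
  have hπeq : ∀ (y : Y) (hy : y ∈ Y₀), π y = ((F.symm ⟨y, hy⟩ : X₀) : X) := fun y hy => by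
    simp only [π, dif_pos hy]
  refine ⟨π, Y₀, ⟨hπ, ?_⟩, hY₀, hν, hSY, ?_⟩
  · have h1 : ν.restrict Y₀ = ν := Measure.restrict_eq_self_of_ae_mem (by
      rw [ae_iff]; exact hν)
    have h2 : μ.restrict X₀ = μ := Measure.restrict_eq_self_of_ae_mem (by
      rw [ae_iff]; exact hμ)
    have h3 : (ν.comap ((↑) : Y₀ → Y)).map ((↑) : Y₀ → Y) = ν.restrict Y₀ :=
      map_comap_subtype_coe hY₀ ν
    have h4 : (μ.comap ((↑) : X₀ → X)).map ((↑) : X₀ → X) = μ.restrict X₀ :=
      map_comap_subtype_coe hX₀ μ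
    have h5 : (ν.comap ((↑) : Y₀ → Y)).map F.symm = μ.comap ((↑) : X₀ → X) := by
      rw [← hmap, Measure.map_map F.symm.measurable F.measurable]
      simp
    calc ν.map π = (ν.restrict Y₀).map π := by rw [h1]
      _ = ((ν.comap ((↑) : Y₀ → Y)).map ((↑) : Y₀ → Y)).map π := by rw [h3]
      _ = (ν.comap ((↑) : Y₀ → Y)).map (fun y : Y₀ => ((F.symm y : X₀) : X)) := by
          rw [Measure.map_map hπ measurable_subtype_coe]
          congr 1
          funext y
          exact hπeq y y.2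
      _ = ((ν.comap ((↑) : Y₀ → Y)).map F.symm).map ((↑) : X₀ → X) := by
          rw [Measure.map_map measurable_subtype_coe F.symm.measurable]
          rfl
      _ = μ.restrict X₀ := by rw [h5, h4]
      _ = μ := h2
  · intro y hy
    have hSy : S y ∈ Y₀ := by
      have : y ∈ S ⁻¹' Y₀ := by rw [hSY]; exact hy
      exact this
    set x : X₀ := F.symm ⟨y, hy⟩ with hx
    have hTx : T x ∈ X₀ := by
      have : (x : X) ∈ T ⁻¹' X₀ := by rw [hTX]; exact x.2
      exact this
    have h1 := hF x hTx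
    have h2 : F x = ⟨y, hy⟩ := by rw [hx]; exact F.apply_symm_apply _
    rw [h2] at h1
    have h3 : F ⟨T x, hTx⟩ = ⟨S y, hSy⟩ := Subtype.ext h1
    rw [hπeq _ hSy, hπeq _ hy, ← h3, F.symm_apply_apply]

section

variable {d : ℕ} {H : Type} [TopologicalSpace H]
  (I : ModelWithCorners ℝ (EuclideanSpace ℝ (Fin d)) H)

/-- The measurable automorphism underlying a diffeomorphism. -/
theorem IsDiffeo.exists_measurableEquiv {M : Type} [TopologicalSpace M] [ChartedSpace H M]
    [MeasurableSpace M] [BorelSpace M] {S : M → M} (h : IsDiffeo I M S) :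
    ∃ R : M ≃ᵐ M, ⇑R = S := by
  obtain ⟨Φ, rfl⟩ := h
  exact ⟨Φ.toHomeomorph.toMeasurableEquiv, rfl⟩

theorem IsDiffeo.exists_homeomorph {M : Type} [TopologicalSpace M] [ChartedSpace H M]
    {S : M → M} (h : IsDiffeo I M S) : ∃ R : M ≃ₜ M, ⇑R = S := by
  obtain ⟨Φ, rfl⟩ := h
  exact ⟨Φ.toHomeomorph, rfl⟩

end

end Vale.Agent.P109.Smooth
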