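import Vale.Agent.P109.F674.Model
import Mathlib.Dynamics.Ergodic.MeasurePreserving

/-!
# Measurable factors of smooth volume preserving systems
-/

open MeasureTheory Set
open scoped ContDiff Manifold

namespace Vale.Agent.P109.Smooth

/-- `(X, μ, T)` is a measurable factor of a `C^∞` diffeomorphism `S` of a compact manifold `M` with
model `I` which preserves a probability measure `ν` with a smooth strictly positive density: there
is a measurable map `π : M → X` carrying `ν` to `μ` with `π ∘ S = T ∘ π` almost everywhere. -/
def IsFactorOn {d : ℕ} {H : Type} [TopologicalSpace H]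
    (I : ModelWithCorners ℝ (EuclideanSpace ℝ (Fin d)) H)
    {X : Type*} [MeasurableSpace X] (μ : Measure X) (T : X → X) : Prop :=
  ∃ (M : Type) (_ : TopologicalSpace M) (_ : ChartedSpace H M) (_ : MeasurableSpace M)
    (ν : Measure M) (S : M → M),
    CompactSmoothManifold I M ∧ BorelSpace M ∧ IsProbabilityMeasure ν ∧
      SmoothPositiveVolume I M ν ∧ IsDiffeo I M S ∧ MeasurePreserving S ν ν ∧
      ∃ π : M → X, MeasurePreserving π ν μ ∧ ∀ᵐ y ∂ν, π (S y) = T (π y)

/-- `(X, μ, T)` is a measurable factor of a smooth positive-volume system: on a compact manifold of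
some finite dimension `d`, without boundary (modelled on `ℝ^d`) or with boundary (modelled on the
half space of `ℝ^d`, `d ≥ 1`). -/
def IsSmoothFactor {X : Type*} [MeasurableSpace X] (μ : Measure X) (T : X → X) : Prop :=
  (∃ d : ℕ, IsFactorOn (𝓡 d) μ T) ∨ (∃ (d : ℕ) (_ : NeZero d), IsFactorOn (𝓡∂ d) μ T)

end Vale.Agent.P109.Smooth
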