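import Vale.Agent.P109.F674.Q1
import Vale.Agent.P109.Bdl.B1

/-!
# Sanity check of the definitions

The notion `HasSmoothModel` is satisfied by every model on a closed manifold in the sense of
`Vale.Agent.P109.HasModel`; in particular it is satisfied by all odometers.
-/

open MeasureTheory Set
open scoped ContDiff Manifold symmDiff

namespace Vale.Agent.P109.Smooth

theorem hasModelOn_of_hasModel {d : ℕ} {X : Type*} [MeasurableSpace X] {μ : Measure X} {T : X → X}
    (h : Vale.Agent.P109.HasModel (EuclideanSpace ℝ (Fin d)) μ T) : HasModelOn (𝓡 d) μ T := by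
  obtain ⟨M, tM, cM, mM, ν, S, hM, hB, hν, hvol, hS, hp, hiso⟩ := h
  refine ⟨M, tM, cM, mM, ν, S, ⟨hM.t2, hM.countable, hM.compact, hM.smooth⟩, hB, hν, ?_, hS, hp,
    hiso⟩
  intro e he
  obtain ⟨ρ, h1, h2, h3⟩ := hvol e he
  have ht : (e.extend (𝓡 d)).target = e.target := by simp
  have hf : (e.extend (𝓡 d) : M → EuclideanSpace ℝ (Fin d)) = e := by
    ext x; simp
  refine ⟨ρ, ?_, ?_, ?_⟩
  · rw [ht]; exact h1
  · rw [ht]; exact h2
  · rw [ht, hf]; exact h3

theorem hasSmoothModel_of_hasModel {d : ℕ} {X : Type*} [MeasurableSpace X] {μ : Measure X}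
    {T : X → X} (h : Vale.Agent.P109.HasModel (EuclideanSpace ℝ (Fin d)) μ T) :
    HasSmoothModel μ T :=
  Or.inl ⟨d, hasModelOn_of_hasModel h⟩

/-- All odometers have a smooth positive-volume model. -/
theorem hasSmoothModel_of_rational {X : Type*} [MeasurableSpace X] [StandardBorelSpace X]
    (μ : Measure X) [IsProbabilityMeasure μ] (hna : ∀ x, μ {x} = 0)
    (T : X ≃ᵐ X) (hE : Ergodic T μ)
    (hper : ∀ A : Set X, MeasurableSet A → ∀ ε : ENNReal, 0 < ε →
      ∃ n : ℕ, 0 < n ∧ ∃ B : Set X, MeasurableSet B ∧ T^[n] ⁻¹' B =ᵐ[μ] B ∧ μ (A ∆ B) < ε) :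
    HasSmoothModel μ T :=
  hasSmoothModel_of_hasModel (d := 2)
    (Vale.Agent.P109.rational_hasSmoothModel μ hna T hE hper).hasModel

end Vale.Agent.P109.Smooth
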