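import Vale.Agent.P109.CH469.Law
import Vale.Agent.P109.H633.Shadow

/-!
# The shadow lemma in the form used by the smooth side
-/

open MeasureTheory Set
open scoped ENNReal

namespace Vale.Agent.P109.F674

theorem shadowStmt (d : ℕ) : CH469.ShadowStmt d := by
  intro n K C₂ e₀ m hK hC he hsmall hm U hU f f' hf hf' hf2 h0 h1 A B hA hball hgood w w' hw hB
  have hfin : Module.finrank ℝ (CH469.EE d) = d := by simp
  exact H633.shadow volume (n := n) (K := K) (C₂ := C₂) (e₀ := e₀) (m := m) hK hC he
    (by rw [hfin]; exact hsmall) hm U hU f f' hf hf' hf2 h0 h1 A B hA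
    hball hgood w w' hw hB

end Vale.Agent.P109.F674
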