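import Vale.Agent.P109.F674.KS
import Mathlib.Analysis.SpecialFunctions.BinaryEntropy
import Mathlib.Dynamics.Ergodic.MeasurePreserving
import Mathlib.Logic.Function.Basic
import Mathlib.Tactic.Linarith
import Mathlib.Tactic.Positivity

/-!
# Elementary properties of the Shannon entropy of finite valued maps

Monotonicity, the bound by the logarithm of the number of values, subadditivity, and the entropy of
names.
-/

open MeasureTheory Set
open scoped ENNReal

namespace Vale.Agent.P109.KS

/-- Gibbs' inequality. -/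
theorem gibbs {A : Type*} [Fintype A] {p q : A → ℝ} (hp : ∀ a, 0 ≤ p a) (hq : ∀ a, 0 ≤ q a)
    (h1 : ∑ a, q a ≤ ∑ a, p a) (hac : ∀ a, q a = 0 → p a = 0) :
    ∑ a, Real.negMulLog (p a) ≤ ∑ a, -(p a * Real.log (q a)) := by
  have h2 : ∀ a, Real.negMulLog (p a) ≤ -(p a * Real.log (q a)) + (q a - p a) := by
    intro a
    rcases (hp a).eq_or_lt with h | h
    · rw [← h]; simpa using hq a
    · have hqa : 0 < q a := by
        rcases (hq a).eq_or_lt with h' | h'
        · exact absurd (hac a h'.symm) h.ne'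
        · exact h'
      have h3 := Real.log_le_sub_one_of_pos (div_pos hqa h)
      rw [Real.log_div hqa.ne' h.ne'] at h3
      have h4 := mul_le_mul_of_nonneg_left h3 h.le
      have h5 : p a * (q a / p a - 1) = q a - p a := by field_simp
      rw [h5] at h4
      rw [Real.negMulLog]
      linarith
  calc ∑ a, Real.negMulLog (p a) ≤ ∑ a, (-(p a * Real.log (q a)) + (q a - p a)) :=
        Finset.sum_le_sum fun a _ => h2 a
    _ = ∑ a, -(p a * Real.log (q a)) + (∑ a, q a - ∑ a, p a) := by
        rw [Finset.sum_add_distrib, Finset.sum_sub_distrib]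
    _ ≤ _ := by linarith

variable {X A B : Type} [MeasurableSpace X] [Fintype A] [Fintype B]
variable {μ : Measure X} [IsProbabilityMeasure μ]

/-- The fibres of the map are measurable. -/
def Fm {X A : Type} [MeasurableSpace X] (f : X → A) : Prop := ∀ a, MeasurableSet (f ⁻¹' {a})

omit [Fintype A] in
theorem Fm.preimage [Finite A] {f : X → A} (hf : Fm f) (s : Set A) : MeasurableSet (f ⁻¹' s) := by
  have : f ⁻¹' s = ⋃ a ∈ s, f ⁻¹' {a} := by ext x; simp
  rw [this]
  exact MeasurableSet.biUnion (Set.toFinite s).countable fun a _ => hf a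

omit [Fintype A] [Fintype B] in
theorem Fm.comp [Finite A] {f : X → A} (hf : Fm f) (φ : A → B) : Fm (fun x => φ (f x)) :=
  fun b => hf.preimage (φ ⁻¹' {b})

omit [Fintype A] [Fintype B] in
theorem Fm.prod {f : X → A} {g : X → B} (hf : Fm f) (hg : Fm g) : Fm (fun x => (f x, g x)) := by
  rintro ⟨a, b⟩
  have : (fun x => (f x, g x)) ⁻¹' {(a, b)} = f ⁻¹' {a} ∩ g ⁻¹' {b} := by ext x; simp
  rw [this]
  exact (hf a).inter (hg b)

omit [Fintype A] in
theorem Fm.pi {ι : Type} [Finite ι] {f : ι → X → A} (hf : ∀ i, Fm (f i)) :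
    Fm (fun x i => f i x) := by
  intro a
  have : (fun x i => f i x) ⁻¹' {a} = ⋂ i, f i ⁻¹' {a i} := by
    ext x
    simp only [mem_preimage, mem_singleton_iff, mem_iInter]
    exact funext_iff
  rw [this]
  exact MeasurableSet.iInter fun i => hf i (a i)

omit [Fintype A] in
theorem Fm.comp_measurable {f : X → A} (hf : Fm f) {T : X → X} (hT : Measurable T) :
    Fm (fun x => f (T x)) := fun a => hT (hf a)

omit [Fintype A] in
theorem Fm.of_measurable [MeasurableSpace A] [MeasurableSingletonClass A] {f : X → A}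
    (hf : Measurable f) : Fm f := fun a => hf (measurableSet_singleton a)

omit [Fintype A] in
theorem Fm.name {f : X → A} (hf : Fm f) {T : X → X} (hT : Measurable T) (n : ℕ) :
    Fm (name T f n) :=
  Fm.pi fun i : Fin n => hf.comp_measurable (hT.iterate i)

omit [IsProbabilityMeasure μ] [Fintype A] in
theorem sum_fiber {f : X → A} (hf : Fm f) [IsFiniteMeasure μ] (s : Finset A) :
    ∑ a ∈ s, μ.real (f ⁻¹' {a}) = μ.real (f ⁻¹' s) := by
  have h : f ⁻¹' (s : Set A) = ⋃ a ∈ s, f ⁻¹' {a} := by ext x; simp
  rw [h, measureReal_biUnion_finset]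
  · intro a _ b _ hab
    rw [Function.onFun, Set.disjoint_left]
    intro x hx hx'
    exact hab (hx.symm.trans hx')
  · intro a _; exact hf a

theorem sum_fiber_univ {f : X → A} (hf : Fm f) : ∑ a, μ.real (f ⁻¹' {a}) = 1 := by
  rw [sum_fiber hf]
  simp

/-- The entropy is at most the logarithm of the number of values. -/
theorem shannon_le_log_card {f : X → A} (hf : Fm f) :
    shannon μ f ≤ Real.log (Fintype.card A) := by
  have hne : Nonempty A := by
    have : Nonempty X := by
      by_contra h
      rw [not_nonempty_iff] at h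
      have h1 : μ univ = 1 := measure_univ
      rw [Set.eq_empty_of_isEmpty univ] at h1
      simp at h1
    exact this.map f
  have hc : (0 : ℝ) < Fintype.card A := by exact_mod_cast Fintype.card_pos
  have h := gibbs (p := fun a => μ.real (f ⁻¹' {a})) (q := fun _ : A => (Fintype.card A : ℝ)⁻¹)
    (fun _ => measureReal_nonneg) (fun _ => by positivity)
    (by rw [sum_fiber_univ hf]; simp) (fun a h => absurd h (by positivity))
  refine h.trans (le_of_eq ?_)
  rw [Finset.sum_neg_distrib, ← Finset.sum_mul, sum_fiber_univ hf, Real.log_inv]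
  ring

/-- Entropy decreases under maps. -/
theorem shannon_comp_le {f : X → A} (hf : Fm f) (φ : A → B) :
    shannon μ (fun x => φ (f x)) ≤ shannon μ f := by
  classical
  have h1 : ∀ b, μ.real ((fun x => φ (f x)) ⁻¹' {b}) =
      ∑ a ∈ Finset.univ.filter (fun a => φ a = b), μ.real (f ⁻¹' {a}) := by
    intro b
    rw [sum_fiber hf]
    congr 1
    ext x
    simp
  have h2 : shannon μ f =
      ∑ b, ∑ a ∈ Finset.univ.filter (fun a => φ a = b), Real.negMulLog (μ.real (f ⁻¹' {a})) := by
    exact (Finset.sum_fiberwise _ _ _).symm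
  rw [h2, shannon]
  refine Finset.sum_le_sum fun b _ => ?_
  rw [h1]
  set s := Finset.univ.filter (fun a => φ a = b)
  set S := ∑ a ∈ s, μ.real (f ⁻¹' {a}) with hS
  rw [Real.negMulLog, hS, neg_mul, Finset.sum_mul, ← Finset.sum_neg_distrib]
  refine Finset.sum_le_sum fun a ha => ?_
  have h3 : μ.real (f ⁻¹' {a}) ≤ S :=
    Finset.single_le_sum (f := fun a => μ.real (f ⁻¹' {a})) (fun _ _ => measureReal_nonneg) ha
  rcases (measureReal_nonneg (μ := μ) (s := f ⁻¹' {a})).eq_or_lt with h4 | h4
  · rw [← h4]; simp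
  · rw [Real.negMulLog]
    have h5 := Real.log_le_log h4 h3
    have h6 := mul_le_mul_of_nonneg_left h5 h4.le
    rw [← hS]
    linarith

/-- Entropy is monotone. -/
theorem shannon_le_of_factorsThrough {f : X → A} {g : X → B} (hf : Fm f)
    (h : ∀ x y, f x = f y → g x = g y) : shannon μ g ≤ shannon μ f := by
  have hne : Nonempty X := by
    by_contra h
    rw [not_nonempty_iff] at h
    have h1 : μ univ = 1 := measure_univ
    rw [Set.eq_empty_of_isEmpty univ] at h1
    simp at h1
  have : Nonempty B := hne.map g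
  obtain ⟨φ, hφ⟩ := (Function.factorsThrough_iff g).1 (fun x y => h x y)
  rw [hφ]
  exact shannon_comp_le hf φ

/-- Subadditivity for pairs. -/
theorem shannon_prod_le {f : X → A} {g : X → B} (hf : Fm f) (hg : Fm g) :
    shannon μ (fun x => (f x, g x)) ≤ shannon μ f + shannon μ g := by
  classical
  have hfg := hf.prod hg
  set p : A × B → ℝ := fun ab => μ.real ((fun x => (f x, g x)) ⁻¹' {ab}) with hp
  set P : A → ℝ := fun a => μ.real (f ⁻¹' {a}) with hP
  set Q : B → ℝ := fun b => μ.real (g ⁻¹' {b}) with hQ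
  have hP1 : ∑ a, P a = 1 := sum_fiber_univ hf
  have hQ1 : ∑ b, Q b = 1 := sum_fiber_univ hg
  have hmP : ∀ a, ∑ b, p (a, b) = P a := by
    intro a
    have h1 : f ⁻¹' {a} = (fun x => (f x, g x)) ⁻¹'
        ((({a} : Finset A) ×ˢ (Finset.univ : Finset B) : Finset (A × B)) : Set (A × B)) := by
      ext x; simp [eq_comm]
    rw [hP]
    show _ = μ.real (f ⁻¹' {a})
    rw [h1, ← sum_fiber hfg, Finset.sum_product, Finset.sum_singleton]
  have hmQ : ∀ b, ∑ a, p (a, b) = Q b := by
    intro b
    have h1 : g ⁻¹' {b} = (fun x => (f x, g x)) ⁻¹'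
        (((Finset.univ : Finset A) ×ˢ ({b} : Finset B) : Finset (A × B)) : Set (A × B)) := by
      ext x; simp [eq_comm]
    show _ = μ.real (g ⁻¹' {b})
    rw [h1, ← sum_fiber hfg, Finset.sum_product]
    simp only [Finset.sum_singleton]
    rfl
  have hp0 : ∀ ab, 0 ≤ p ab := fun _ => measureReal_nonneg
  have hP0 : ∀ a, 0 ≤ P a := fun _ => measureReal_nonneg
  have hQ0 : ∀ a, 0 ≤ Q a := fun _ => measureReal_nonneg
  have hpP : ∀ a b, p (a, b) ≤ P a := by
    intro a b
    rw [← hmP a]
    exact Finset.single_le_sum (f := fun b => p (a, b)) (fun b _ => hp0 _) (Finset.mem_univ b)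
  have hpQ : ∀ a b, p (a, b) ≤ Q b := by
    intro a b
    rw [← hmQ b]
    exact Finset.single_le_sum (f := fun a => p (a, b)) (fun b _ => hp0 _) (Finset.mem_univ a)
  have h := gibbs (p := p) (q := fun ab => P ab.1 * Q ab.2) hp0
    (fun ab => mul_nonneg (hP0 _) (hQ0 _))
    (by
      rw [Fintype.sum_prod_type, Fintype.sum_prod_type]
      simp only [← Finset.mul_sum, hQ1, mul_one, hP1, hmP]
      exact le_rfl)
    (by
      rintro ⟨a, b⟩ hab
      rcases mul_eq_zero.1 hab with h | h
      · exact le_antisymm (h ▸ hpP a b) (hp0 _)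
      · exact le_antisymm (h ▸ hpQ a b) (hp0 _))
  refine h.trans (le_of_eq ?_)
  have h2 : ∀ ab : A × B, -(p ab * Real.log (P ab.1 * Q ab.2)) =
      -(p ab * Real.log (P ab.1)) + -(p ab * Real.log (Q ab.2)) := by
    rintro ⟨a, b⟩
    rcases (hp0 (a, b)).eq_or_lt with h | h
    · rw [← h]; simp
    · have ha : 0 < P a := h.trans_le (hpP a b)
      have hb : 0 < Q b := h.trans_le (hpQ a b)
      rw [Real.log_mul ha.ne' hb.ne']
      ring
  rw [Finset.sum_congr rfl fun ab _ => h2 ab, Finset.sum_add_distrib]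
  congr 1
  · rw [Fintype.sum_prod_type, shannon]
    refine Finset.sum_congr rfl fun a _ => ?_
    simp only [Finset.sum_neg_distrib, ← Finset.sum_mul, hmP, Real.negMulLog]
    ring
  · rw [Fintype.sum_prod_type_right, shannon]
    refine Finset.sum_congr rfl fun b _ => ?_
    simp only [Finset.sum_neg_distrib, ← Finset.sum_mul, hmQ, Real.negMulLog]
    ring

omit [IsProbabilityMeasure μ] in
/-- Invariance. -/
theorem shannon_comp_mp {f : X → A} (hf : Fm f) {T : X → X} (hT : MeasurePreserving T μ μ) :
    shannon μ (fun x => f (T x)) = shannon μ f := by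
  rw [shannon, shannon]
  refine Finset.sum_congr rfl fun a _ => ?_
  have h : (fun x => f (T x)) ⁻¹' {a} = T ⁻¹' (f ⁻¹' {a}) := rfl
  rw [h, measureReal_def, measureReal_def, hT.measure_preimage (hf a).nullMeasurableSet]

/-- Subadditivity for a finite family of maps. -/
theorem shannon_pi_le (n : ℕ) (f : Fin n → X → A) (hf : ∀ i, Fm (f i)) :
    shannon μ (fun x i => f i x) ≤ ∑ i, shannon μ (f i) := by
  induction n with
  | zero =>
    refine (shannon_le_log_card (μ := μ) (Fm.pi hf)).trans (le_of_eq ?_)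
    simp
  | succ n ih =>
    have h0 : Fm (fun x (i : Fin n) => f i.succ x) := Fm.pi fun i => hf i.succ
    have h1 : shannon μ (fun x i => f i x) ≤
        shannon μ (fun x => (f 0 x, fun i : Fin n => f i.succ x)) := by
      refine shannon_le_of_factorsThrough ((hf 0).prod h0) fun x y hxy => ?_
      have h2 : f 0 x = f 0 y := congrArg Prod.fst hxy
      have h3 : (fun i : Fin n => f i.succ x) = fun i => f i.succ y := congrArg Prod.snd hxy
      funext i
      refine Fin.cases h2 (fun i => congrFun h3 i) i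
    refine h1.trans ((shannon_prod_le (hf 0) h0).trans ?_)
    rw [Fin.sum_univ_succ]
    exact add_le_add le_rfl (ih (fun i => f i.succ) fun i => hf i.succ)

/-- Entropy of names. -/
theorem shannon_name_le {f : X → A} (hf : Fm f) {T : X → X} (hT : MeasurePreserving T μ μ)
    (n : ℕ) : shannon μ (name T f n) ≤ n * shannon μ f := by
  have h := shannon_pi_le (μ := μ) n (fun i x => f (T^[i] x))
    (fun i => hf.comp_measurable (hT.measurable.iterate i))
  refine h.trans (le_of_eq ?_)
  have h2 : ∀ i : Fin n, shannon μ (fun x => f (T^[i] x)) = shannon μ f :=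
    fun i => shannon_comp_mp hf (hT.iterate i)
  rw [Finset.sum_congr rfl fun i _ => h2 i]
  simp

/-- Entropy of an event. -/
theorem shannon_bool {E : Set X} (hE : MeasurableSet E) [DecidablePred (· ∈ E)] :
    shannon μ (fun x => decide (x ∈ E)) = Real.binEntropy (μ.real E) := by
  rw [shannon, Fintype.sum_bool, Real.binEntropy_eq_negMulLog_add_negMulLog_one_sub]
  have h1 : (fun x => decide (x ∈ E)) ⁻¹' {true} = E := by ext x; simp
  have h2 : (fun x => decide (x ∈ E)) ⁻¹' {false} = Eᶜ := by ext x; simp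
  rw [h1, h2, measureReal_compl hE]
  simp

end Vale.Agent.P109.KS
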