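import Vale.Agent.P109.F674.Final
import Vale.Agent.P109.H703.S4
import Vale.Agent.P109.CH469.Pred

/-!
# The smooth side from the shadowing lemma and the numerical statement
-/

open MeasureTheory Set Filter
open scoped ENNReal Topology Manifold

namespace Vale.Agent.P109.F674

open Vale.Agent.P109.Smooth

theorem smoothSide_of {A : Type} [Fintype A] [Nonempty A] [MeasurableSpace A]
    [MeasurableSingletonClass A] {d : ℕ} (hsh : CH469.ShadowStmt d) (hnum : CH469.NumStmt d)
    {H : Type} [TopologicalSpace H] (I : ModelWithCorners ℝ (EuclideanSpace ℝ (Fin d)) H)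
    (hcol : H703.Collar I) : SmoothSide (CH469.Fam : OV.Family A) I := by
  intro M _ _ _ _ ν _ S hM hν hS hmp
  obtain ⟨R, hR⟩ := hS.exists_measurableEquiv I
  exact CH469.predictable_of_locModel' hsh hnum ν R hR hmp fun β hβ ε hε =>
    H703.exists_locModel I hcol hM hν hS β (fun a => hβ (measurableSet_singleton a)) hε

end Vale.Agent.P109.F674
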